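import Vale.Agent.P281Z.Defs
import Vale.Agent.P277.H762.L1a
import Vale.Agent.P275S.Defs

/-!
# P275, fibre dimension: the interfaces
-/

open scoped Manifold ContDiff Topology
open Set CategoryTheory
open Vale.Agent.P272.K (Cm Chart At)
open Vale.Agent.P277.H762 (Cv)
open Vale.Agent.P277Z.Slc (ForW)
open Vale.Agent.P281Z (An SubM)

namespace Vale.Agent.P275FD

/-- in every chart `A` is covered by countably many analytic images of open subsets of `ℂ^r` -/
def CvC (n : ℕ) {W : Type} [TopologicalSpace W] [ChartedSpace (Cm n) W] (r : ℕ) (A : Set W) :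
    Prop := ∀ e ∈ atlas (Cm n) W, Cv r (e '' (A ∩ e.source))

/-- off a closed set of smaller dimension an analytic set is a manifold -/
def DIMP : Prop := ForW fun n W _ _ => ∀ (A : Set W) (r : ℕ), An n A → CvC n (r + 1) A →
  ∃ S, IsClosed S ∧ S ⊆ A ∧ CvC n r S ∧ SubM n (r + 1) (A \ S)

/-- the cohomology of a compact analytic set bounds its dimension -/
def TOP : Prop := ForW fun n W _ _ => ∀ (X : TopCat.{0}) [P275S.Nice X] (i : C(W, X)),
  Topology.IsEmbedding i → ∀ (N : Set W) (R : ℕ), IsCompact N → An n N →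
    (∀ m : ℤ, 2 * R < m → P275S.Van (𝟙 (P275S.I ℂ X)) ∅ (i '' N) m) → CvC n R N

end Vale.Agent.P275FD
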