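import Vale.Agent.P275S.Soft
import Vale.Agent.P275S.AS
import Vale.Agent.P275S.KInj
import Mathlib.Topology.MetricSpace.HausdorffDimension
import Mathlib.MeasureTheory.Constructions.Polish.Basic

/-!
# P275, fibre dimension: inductive dimension, slices of null sets, tautness
-/

open CategoryTheory TopologicalSpace Set Filter MeasureTheory Topology Metric P275S
open scoped ENNReal NNReal

noncomputable section

namespace Vale.Agent.P275FD

section slice

variable {E E' : Type*} [EMetricSpace E] [MeasurableSpace E] [BorelSpace E] [EMetricSpace E']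
  [MeasurableSpace E'] [BorelSpace E']

/-- almost all slices of a null set are null in one dimension less -/
theorem slice_null {d : ℕ} {S : Set E} (h : μH[((d + 1 : ℕ) : ℝ)] S = 0) {g : E → ℝ}
    (hg : LipschitzWith 1 g) : ∀ᵐ c, μH[(d : ℝ)] (S ∩ g ⁻¹' {c}) = 0 := by
  have h1 : ∀ m : ℕ, ∃ t : ℕ → Set E, S ⊆ ⋃ n, t n ∧ (∀ n, ediam (t n) ≤ 2⁻¹ ^ m) ∧
      ∑' n, (⨆ _ : (t n).Nonempty, ediam (t n) ^ ((d + 1 : ℕ) : ℝ)) < 2⁻¹ ^ m := fun m => by
    have hm : (0 : ℝ≥0∞) < 2⁻¹ ^ m := ENNReal.pow_pos (by simp) m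
    rw [Measure.hausdorffMeasure_apply] at h
    have h2 := (le_iSup₂_of_le (2⁻¹ ^ m) hm le_rfl).trans h.le
    simpa only [iInf_lt_iff, exists_prop] using h2.trans_lt hm
  choose t h2 h3 h4 using h1
  let f : ℕ → ℕ → ℝ → ℝ≥0∞ := fun m n =>
    (closure (g '' t m n)).indicator fun _ => ediam (t m n) ^ (d : ℝ)
  have hf : ∀ m n, Measurable (f m n) := fun m n =>
    measurable_const.indicator isClosed_closure.measurableSet
  have h5 : ∀ m n, ∫⁻ c, f m n c ≤ ⨆ _ : (t m n).Nonempty, ediam (t m n) ^ ((d + 1 : ℕ) : ℝ) := by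
    intro m n
    rcases (t m n).eq_empty_or_nonempty with e | e
    · simp [f, e]
    · rw [iSup_pos e, lintegral_indicator_const isClosed_closure.measurableSet,
        ENNReal.rpow_natCast, ENNReal.rpow_natCast, pow_succ]
      refine mul_le_mul_right ((Real.volume_le_diam _).trans ?_) _
      rw [ediam_closure]
      simpa using hg.ediam_image_le (t m n)
  have h6 : ∫⁻ c, ∑' m, ∑' n, f m n c ≠ ⊤ := by
    rw [lintegral_tsum fun m => (Measurable.tsum (hf m)).aemeasurable]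
    refine ne_top_of_le_ne_top (b := ∑' m : ℕ, 2⁻¹ ^ m) (by simp) (ENNReal.tsum_le_tsum fun m => ?_)
    rw [lintegral_tsum fun n => (hf m n).aemeasurable]
    exact (ENNReal.tsum_le_tsum (h5 m)).trans (h4 m).le
  filter_upwards [ae_lt_top (Measurable.tsum fun m => Measurable.tsum (hf m)) h6]
    with c hc
  have h7 := ENNReal.tendsto_atTop_zero_of_tsum_ne_top hc.ne
  refine le_antisymm ((Measure.hausdorffMeasure_le_liminf_tsum (l := atTop) _ _
    (ι := fun m => {n // c ∈ closure (g '' t m n)}) (fun m => 2⁻¹ ^ m)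
    (ENNReal.tendsto_pow_atTop_nhds_zero_of_lt_one (by simp)) (fun m n => t m n)
    (.of_forall fun m n => h3 m n) (.of_forall fun m x hx => ?_)).trans (le_of_eq ?_)) bot_le
  · obtain ⟨n, hn⟩ := mem_iUnion.1 (h2 m hx.1)
    exact mem_iUnion.2 ⟨⟨n, subset_closure ⟨x, hn, hx.2⟩⟩, hn⟩
  · refine Tendsto.liminf_eq (h7.congr fun m => ?_)
    exact (tsum_subtype {n | c ∈ closure (g '' t m n)} fun n => ediam (t m n) ^ (d : ℝ)).symm ▸
      tsum_congr fun n => rfl

theorem null_image [SecondCountableTopology E] {d : ℝ} (hd : 0 ≤ d) {S : Set E} {f : E → E'}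
    (hf : ∀ x ∈ S, ∃ C : ℝ≥0, ∃ t ∈ 𝓝[S] x, LipschitzOnWith C f t) (h : μH[d] S = 0) :
    μH[d] (f '' S) = 0 := by
  choose! C t h1 h2 using hf
  obtain ⟨u, hu, hc, h3⟩ := countable_cover_nhdsWithin h1
  refine measure_mono_null (t := ⋃ x ∈ u, f '' (S ∩ t x)) ?_ ((measure_biUnion_null_iff hc).2
    fun x hx => le_antisymm (((h2 x (hu hx)).mono inter_subset_right).hausdorffMeasure_image_le
      hd |>.trans ?_) bot_le)
  · rintro _ ⟨y, hy, rfl⟩
    obtain ⟨x, hx, k⟩ := mem_iUnion₂.1 (h3 hy)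
    exact mem_iUnion₂.2 ⟨x, hx, y, ⟨hy, k⟩, rfl⟩
  · rw [measure_mono_null inter_subset_left h, mul_zero]

end slice

variable {k : Type} [Field k] {X Y : TopCat.{0}} {F G E : Cx k X} {p : F ⟶ F} {A B : Set X}
  {n : ℤ}

/-- one step of the local to global principle, with small frontiers -/
theorem van_front [Nice X] (hF : SoftC F) (hp : Homotopy (p ≫ p) p) (hA : IsClosed A)
    (hB : IsCompact B) (T : Set X → Prop) (t0 : T ∅) (t1 : ∀ S S', S' ⊆ S → T S → T S')
    (t2 : ∀ S S', T S → T S' → T (S ∪ S')) (h₀ : ∀ C, IsCompact C → T C → Van p A C (n - 1))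
    (h : ∀ x ∈ B, x ∉ A → ZeroAt p n x) (hb : ∀ x ∈ B, ∀ U, IsOpen U → x ∈ U →
      ∃ V, IsOpen V ∧ x ∈ V ∧ closure V ⊆ U ∧ T (B ∩ frontier V)) : Van p A B n := by
  have D := hF.dat hp
  refine van_iff.2 fun i l hi hl s hs hd => ?_
  obtain rfl : i = n - 1 := by omega
  let Bd := fun C => P275SO.Bd (fun i j => app (F.d i j) ⊤) (fun i => P275SO.gm (F.X i)) A C
    (n - 1) (app (p.f n) ⊤ s)
  have : ∃ V, IsOpen V ∧ B ⊆ V ∧ T (B ∩ frontier V) ∧ Bd (closure V ∩ B) := by
    refine hB.induction_on (p := fun C => ∃ V, IsOpen V ∧ C ⊆ V ∧ T (B ∩ frontier V) ∧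
      Bd (closure V ∩ B)) ⟨∅, isOpen_empty, Subset.rfl, by simpa using t0, by
        rw [closure_empty, empty_inter]; exact P275SO.Bd.empty _⟩
      (fun C C' a ⟨V, b1, b2, b3⟩ => ⟨V, b1, a.trans b2, b3⟩) ?_ ?_
    · rintro C C' ⟨V, b1, b2, b3, b4⟩ ⟨V', c1, c2, c3, c4⟩
      refine ⟨V ∪ V', b1.union c1, union_subset_union b2 c2, t1 _ _ ?_ (t2 _ _ b3 c3), ?_⟩
      · rw [← inter_union_distrib_left]
        exact inter_subset_inter_right _ ((frontier_union_subset _ _).trans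
          (union_subset_union inter_subset_left inter_subset_right))
      · have k1 : IsCompact (closure V ∩ B) := hB.inter_left isClosed_closure
        have k2 : IsCompact ((closure V' \ V) ∩ B) := hB.inter_left (isClosed_closure.sdiff b1)
        have a : closure V ∩ B ∪ (closure V' \ V) ∩ B ⊆ B :=
          union_subset inter_subset_right inter_subset_right
        refine (D.mv hA k1 k2 hi hl (van_iff.1 (h₀ _ (k1.inter k2) (t1 _ _ ?_ b3)))
          (P275SO.N_anti (inter_subset_inter_right _ a) hs) (P275SO.N_anti a hd) b4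
          (c4.mono (inter_subset_inter_left _ sdiff_subset))).mono ?_
        · rw [b1.frontier_eq]
          exact fun x hx => ⟨hx.1.2, hx.1.1, hx.2.1.2⟩
        · rw [closure_union]
          rintro x ⟨hx | hx, hx'⟩
          · exact Or.inl ⟨hx, hx'⟩
          · by_cases e : x ∈ V
            · exact Or.inl ⟨subset_closure e, hx'⟩
            · exact Or.inr ⟨⟨hx, e⟩, hx'⟩
    · intro x hx
      have a : Bd {x} := by
        have b : ({x} : Set X) ⊆ B := singleton_subset_iff.2 hx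
        refine van_iff.1 ?_ _ l hi hl s (P275SO.N_anti (inter_subset_inter_right _ b) hs)
          (P275SO.N_anti b hd)
        by_cases a : x ∈ A
        · exact van_of_subset p (singleton_subset_iff.2 a)
        · exact van_pt (hF.2 _) a (h x hx a)
      obtain ⟨U, u1, u2, u3⟩ := D.nhds hA a
      obtain ⟨V, v1, v2, v3, v4⟩ := hb x hx U u1 (u2 rfl)
      exact ⟨V, mem_nhdsWithin_of_mem_nhds (v1.mem_nhds v2), V, v1, Subset.rfl, v4,
        u3.mono (inter_subset_left.trans v3)⟩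
  obtain ⟨V, -, b2, -, b3⟩ := this
  exact b3.mono fun x hx => ⟨subset_closure (b2 hx), hx⟩

/-- **Inductive dimension bounds the cohomological dimension.** -/
theorem van_ind [Nice X] (hF : SoftC F) (hp : Homotopy (p ≫ p) p) (hA : IsClosed A)
    (T : ℕ → Set X → Prop) (t0 : ∀ d, T d ∅) (t1 : ∀ d S S', S' ⊆ S → T d S → T d S')
    (t2 : ∀ d S S', T d S → T d S' → T d (S ∪ S')) (t3 : ∀ S, T 0 S → S = ∅)
    (t4 : ∀ d S, T (d + 1) S → ∀ x ∈ S, ∀ U, IsOpen U → x ∈ U →
      ∃ V, IsOpen V ∧ x ∈ V ∧ closure V ⊆ U ∧ T d (S ∩ frontier V)) {c : ℤ}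
    (h : ∀ x, x ∉ A → ∀ j, c < j → ZeroAt p j x) (d : ℕ) :
    ∀ S, IsCompact S → T d S → ∀ m, c + d ≤ m → Van p A S m := by
  induction d with
  | zero => exact fun S _ hS m _ => t3 S hS ▸ van_empty p
  | succ d ih =>
    exact fun S hS hT m hm => van_front hF hp hA hS (T d) (t0 d) (t1 d) (t2 d)
      (fun C a b => ih C a b _ (by omega)) (fun x _ a => h x a m (by omega)) (t4 d S hT)

/-- the exact sequence of a pair -/
theorem van_pair (hA : A ⊆ B) (h₁ : Van (𝟙 F) ∅ B n) (h₂ : Van (𝟙 F) ∅ A (n - 1)) :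
    Van (𝟙 F) A B n := by
  intro s hs hd
  rw [inter_eq_left.2 hA] at hs ⊢
  obtain ⟨t, -, b⟩ := h₁ s (by rw [empty_inter]; exact mem_Nv_empty _) hd
  have b' : app (F.d (n - 1) n) ⊤ t - s ∈ Nv (F.X n) B := b
  obtain ⟨u, -, c⟩ := h₂.flex (i := n - 1 - 1) (l := n) (by omega) (by omega) (s := t)
    (by rw [empty_inter]; exact mem_Nv_empty _)
    ((sub_add_cancel (app (F.d (n - 1) n) ⊤ t) s) ▸ add_mem (Nv_anti hA b') hs :)
  have c' : app (F.d (n - 1 - 1) (n - 1)) ⊤ u - t ∈ Nv (F.X (n - 1)) A := c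
  refine ⟨t - app (F.d (n - 1 - 1) (n - 1)) ⊤ u, neg_sub _ t ▸ neg_mem c', ?_⟩
  rw [map_sub, app_d_d, sub_zero]
  exact b

/-- any soft complex which resolves the constant sheaf on `B - A` computes the cohomology -/
theorem van_cls [Nice X] (hE : SoftC E) (c : cstAt k X 0 ⟶ E) (hA : IsClosed A)
    (hB : IsCompact B) (h : ∀ x ∈ B, x ∉ A → QisAt c x) :
    Van (𝟙 (I k X)) A B n ↔ Van (𝟙 E) A B n := by
  obtain ⟨J, hJ, j, hj⟩ := exists_inj E hE.1
  obtain ⟨ψ, hψ⟩ := KG.exists_lift_hom (k := k) (ιI k X) hJ (c ≫ j)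
  rw [← KG.hom_comp, KG.hom_eq_iff] at hψ
  obtain ⟨H⟩ := hψ
  have h1 := qis_tab (softC_I k X) hJ.softC ψ hA hB fun x a b =>
    (qisAt_of_quasiIso (ιI k X) x).of_comp_left ((qisAt_of_homotopy H x).2
      ((h x a b).comp (qisAt_of_quasiIso j x)))
  have h2 := qis_tab hE hJ.softC j hA hB fun x _ _ => qisAt_of_quasiIso j x
  rw [van_id_iff, van_id_iff,
    exactAt_iff_of_quasiIsoAt ((mapC (TAB k A B)).map ψ),
    exactAt_iff_of_quasiIsoAt ((mapC (TAB k A B)).map j)]

end Vale.Agent.P275FD
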