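import Vale.Agent.P275FD.Defs
import Vale.Agent.P275FD.Ind
import Vale.Agent.P275S.Unit
import Vale.Agent.P275MC.Cur
import Vale.Agent.P281Z.Mf.Sub
import Vale.Agent.P277.H762.CL1

/-!
# P275, fibre dimension: the cohomology of a compact analytic set bounds its dimension
-/

set_option backward.isDefEq.respectTransparency false

open CategoryTheory TopologicalSpace Set Filter MeasureTheory Topology Metric P275S
open scoped ENNReal NNReal Manifold ContDiff
open Vale.Agent.P272.K (Cm Chart At)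
open Vale.Agent.P277.H762 (Cv)
open Vale.Agent.P277Z (trans_an at_chart)
open Vale.Agent.P281Z Vale.Agent.P281Z.Hg Vale.Agent.P275MC

noncomputable section

namespace Vale.Agent.P275FD

section emb

variable {k : Type} [Field k] {X Y : TopCat.{0}} {i : Y ⟶ X} {G : P275S.Cx k Y} {n : ℤ}

theorem ex_open (hi : IsInducing i) {U : Opens X} {V : Opens Y} (h : V ≤ (Opens.map i).obj U)
    {y : Y} (hy : y ∈ V) : ∃ W ≤ U, i y ∈ W ∧ (Opens.map i).obj W ≤ V := by
  obtain ⟨W, hW, e⟩ := hi.isOpen_iff.1 V.2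
  exact ⟨⟨W, hW⟩ ⊓ U, inf_le_right, ⟨e.symm.subset hy, h hy⟩, fun z hz => e.subset hz.1⟩

theorem qisAt_emb (hi : IsInducing i) {e : sec (G.X 0) ⊤} (h : P275S.RsE G e) (y : Y) :
    QisAt (clsC (F := (pushC k i).obj G) (m := 0) e h.de) (i y) := by
  refine qisAt_clsC _ _ _ (fun n hn U hx s hs => ?_) (fun U hx s hs => ?_) fun U hx a t ht => ?_
  · rcases hn.lt_or_gt with hn | hn
    · exact ⟨U, le_rfl, hx, 0, (map_zero _).trans (h.neg n hn _ _).symm⟩
    · obtain ⟨V, hV, yV, t, ht⟩ := h.ex n hn y _ hx s hs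
      obtain ⟨W, h1, h2, h3⟩ := ex_open hi hV yV
      exact ⟨W, h1, h2, res (G.X _) h3 t, (app_res (G.d _ _) h3 t).trans
        ((congrArg _ ht).trans (res_res _ _ _ _))⟩
  · obtain ⟨V, hV, yV, a, ha⟩ := h.loc0 _ s hs y hx
    obtain ⟨W, h1, h2, h3⟩ := ex_open hi hV yV
    refine ⟨W, h1, h2, a, 0, ?_⟩
    have := congrArg (res _ h3) ha
    rw [res_res, map_smul, res_res] at this
    rw [map_zero, add_zero]
    exact this.symm
  · refine h.ne _ y hx a (ht.symm.trans ?_)
    rw [h.neg (0 - 1) (by omega) _ t, map_zero]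

theorem mem_Nv_emb (hi : IsInducing i) {E : Sh k Y} {B : Set Y} (s : sec ((push k i).obj E) ⊤) :
    s ∈ Nv ((push k i).obj E) (i '' B) ↔ (show sec E ⊤ from s) ∈ Nv E B := by
  constructor
  · intro a
    exact mem_Nv_of_res (W := (Opens.map i).obj (zer s))
      (fun y hy => ⟨trivial, fun b => mem_Nv.1 a b ⟨y, hy, rfl⟩⟩) (res_zer s)
  · intro a
    refine mem_Nv.2 ?_
    rintro _ hx ⟨y, hy, rfl⟩
    obtain ⟨W, h1, h2, h3⟩ := ex_open hi (U := ⊤) (V := zer (show sec E ⊤ from s)) le_top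
      (y := y) ⟨trivial, fun b => mem_Nv.1 a b hy⟩
    have := congrArg (res E h3) (res_zer (show sec E ⊤ from s))
    rw [res_res, map_zero] at this
    exact hx.2 W h1 h2 this

theorem van_push_emb (hi : IsEmbedding i) {G' : P275S.Cx k Y} {q : G ⟶ G'} {A B : Set Y} :
    Van ((pushC k i).map q) (i '' A) (i '' B) n ↔ Van q A B n := by
  unfold Van
  rw [← image_inter hi.injective]
  have h := fun E B s => mem_Nv_emb (k := k) hi.isInducing (E := E) (B := B) s
  exact forall_congr' fun s => imp_congr (h _ _ s) (imp_congr (h _ _ _)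
    (exists_congr fun t => and_congr (h _ _ t) (h _ _ _)))

/-- tautness -/
theorem van_emb [Nice X] (hi : IsEmbedding i) {A B : Set Y} (hA : IsClosed A)
    (hB : IsCompact B) : Van (𝟙 (I k X)) (i '' A) (i '' B) n ↔ Van (𝟙 (I k Y)) A B n := by
  have e : i '' A ∩ i '' B = i '' (A ∩ B) ∩ i '' B := by
    rw [← image_inter hi.injective, ← image_inter hi.injective, inter_assoc, inter_self]
  rw [← van_push_emb hi, CategoryTheory.Functor.map_id, van_congr e, van_congr e]
  refine van_cls ((flqC_I k Y).pushC i).softC (clsC (F := (pushC k i).obj _) _ (rs_I k Y).de)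
    ((hB.inter_left hA).image hi.continuous).isClosed (hB.image hi.continuous) ?_
  rintro _ ⟨y, -, rfl⟩ -
  exact qisAt_emb hi.isInducing (rs_I k Y) y

end emb

/-- the top cohomology with compact supports of a complex manifold does not vanish -/
theorem not_van {d : ℕ} {M : Type} [TopologicalSpace M] [ChartedSpace (Cm d) M] [T2Space M]
    [IsManifold 𝓘(ℂ, Cm d) ω M] {X : TopCat.{0}} [Nice X] {i : TopCat.of M ⟶ X}
    (hi : IsInducing i) {A B : Set X} (hA : IsClosed A) (hB : IsCompact B)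
    (hr : range i = B \ A) (p : M) : ¬ Van (𝟙 (I ℂ X)) A B (d + d : ℕ) := by
  intro h
  have : (Cur d M).IsStrictlyGE 0 :=
    (CochainComplex.isStrictlyGE_iff _ _).2 fun j hj => isZero_Cur (Or.inl hj)
  have hB' : ∀ y, i y ∈ B \ A := fun y => hr ▸ mem_range_self y
  rw [van_cls ((flqC_Cur (d := d) (M := M)).pushC i).softC _ hA hB fun x a b => by
    obtain ⟨y, rfl⟩ : x ∈ range i := hr ▸ ⟨a, b⟩
    exact qisAt_emb hi (rs_of_qis (ιCur d M)) y] at h
  let L : SF d M →ₗ[ℂ] ℂ :=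
    ⟨⟨fun u => vl u (chartAt _ p) (chartAt (Cm d) p p) ∅, fun _ _ => rfl⟩, fun _ _ => rfl⟩
  let s : sec ((Cur d M).X (d + d : ℕ)) ⊤ :=
    L.domRestrict (Am d ((d + d : ℕ) - (d + d : ℕ)) univ)
  obtain ⟨t, h1, h2⟩ := h s (mem_Nv_of_res (W := ⟨(i '' closure {p})ᶜ,
    (isCompact_singleton.closure.image i.hom.continuous).isClosed.isOpen_compl⟩)
      (by rintro _ a ⟨y, -, rfl⟩; exact (hB' y).2 a.1) (cur_ext fun u hu => by
        obtain ⟨K, -, k2, k3⟩ := hu.1
        exact congrFun (k3 p (fun a => k2 a ⟨p, subset_closure rfl, rfl⟩) _ (at_chart p)) ∅))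
    (mem_Nv_of_res (W := ⊤) (subset_univ _)
      (sec_eq_zero ((push ℂ i).map_isZero (isZero_Cur (Or.inr (by omega)))) _))
  have hK : IsCompact (i ⁻¹' (B \ zer t)) := hi.isCompact_preimage' (hB.diff (zer t).2)
    fun x hx => hr ▸ ⟨hx.1, fun a => hx.2 ⟨trivial, fun b => mem_Nv.1 h1 b ⟨a, hx.1⟩⟩⟩
  obtain ⟨ρ, r1, r2, -, -, -, r3⟩ := ex_cut (d := d) isOpen_univ (hK.insert p) (subset_univ _)
  have hχ : mu r1 (one d M) ∈ Am d ((d + d : ℕ) - (d + d : ℕ)) univ :=
    ⟨mu_mem_Ac r1 r2 (subset_univ _) _, by rw [sub_self]; exact mu_Dg r1 one_Dg⟩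
  obtain ⟨V, _, hV, h2⟩ := eq_near (subset_univ _) (mem_Nv'.1 h2)
  have h3 := congrArg (fun z => cv' (U := (Opens.map i).obj V) z ⟨_, Am_mono _
    (show univ ⊆ i ⁻¹' V from fun y _ => hV (hB' y).1) hχ⟩) h2
  have h4 : cv' (U := ⊤) (app ((Cur d M).d ((d + d : ℕ) - 1) (d + d : ℕ)) ⊤ t) ⟨_, hχ⟩ =
    L (mu r1 (one d M)) := h3
  have h5 : dd d M (mu r1 (one d M)) ∈ Ac d (i ⁻¹' zer t) := by
    refine ⟨tsupport ρ \ interior {y | ρ y = 1}, r2.isCompact.diff isOpen_interior,
      fun y hy => of_not_not fun a => hy.2 (mem_interior_iff_mem_nhds.2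
        (r3 y (Or.inr ⟨(hB' y).1, a⟩))), fun y hy => ?_⟩
    by_cases a : y ∈ tsupport ρ
    · rw [← sub_zero (dd d M _), ← dd_one, ← map_sub]
      refine dd_ZP ?_
      filter_upwards [mem_interior_iff_mem_nhds.1 (of_not_not fun b => hy ⟨a, b⟩)] with z hz e he
      rw [vl_sub, mu_vl r1 _ he, show ρ z = 1 from hz, Complex.ofReal_one, one_smul, sub_self]
    · exact dd_Sp (isClosed_tsupport ρ)
        (fun z hz => mu_ZP r1 _ (image_eq_zero_of_notMem_tsupport hz)) y a
  have h6 := congrArg (fun z => cv' (U := (Opens.map i).obj _) z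
    ⟨_, h5, ((amC d M).map (by omega) ⊤ _ hχ).2⟩) (res_zer t)
  rw [cv'_d (by omega)] at h4
  have h7 : L (mu r1 (one d M)) = 1 := by
    change vl _ _ _ ∅ = 1
    rw [mu_vl r1 _ (at_chart p), (r3 p (Or.inl rfl)).self_of_nhds, one_vl _ _ (at_chart p)]
    simp [P299.IX.Fock.ev]
  exact zero_ne_one (h6.symm.trans (h4.trans h7))

variable {n : ℕ} {W : Type} [TopologicalSpace W] [T2Space W] [SecondCountableTopology W]
  [ChartedSpace (Cm n) W] [IsManifold 𝓘(ℂ, Cm n) ω W]

theorem nice_mf (n : ℕ) (W : Type) [TopologicalSpace W] [T2Space W] [SecondCountableTopology W]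
    [ChartedSpace (Cm n) W] : Nice (TopCat.of W) :=
  ⟨ChartedSpace.locallyCompactSpace (Cm n) W, ‹_›, ‹_›⟩

theorem null_an {a b : ℕ} {d : ℝ} (hd : 0 ≤ d) {S : Set (Cm a)} {f : Cm a → Cm b}
    (hf : ∀ x ∈ S, AnalyticAt ℂ f x) (h : μH[d] S = 0) : μH[d] (f '' S) = 0 :=
  null_image hd (fun x hx =>
    let ⟨C, t, h1, h2⟩ := ((hf x hx).contDiffAt (n := 1)).exists_lipschitzOnWith
    ⟨C, t, mem_nhdsWithin_of_mem_nhds h1, h2⟩) h

theorem null_cv {r : ℕ} {S : Set (Cm n)} (h : Cv r S) : μH[((2 * r + 1 : ℕ) : ℝ)] S = 0 := by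
  obtain ⟨Ω, g, -, h2, h3⟩ := h
  refine measure_mono_null h3 (measure_iUnion_null fun l => null_an (by positivity) (h2 l)
    (measure_mono_null (subset_univ _) (hausdorffMeasure_of_dimH_lt (d := (2 * r + 1 : ℕ)) ?_)))
  rw [Real.dimH_univ_eq_finrank, finrank_real_of_complex, Module.finrank_fin_fun]
  exact_mod_cast Nat.lt_succ_self _

/-- null in all charts -/
def Nul (n : ℕ) [ChartedSpace (Cm n) W] (d : ℕ) (S : Set W) : Prop :=
  ∀ e ∈ atlas (Cm n) W, μH[(d : ℝ)] (e '' (S ∩ e.source)) = 0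

omit [SecondCountableTopology W] in
theorem Nul.slice {d : ℕ} {S : Set W} (h : Nul n (d + 1) S) (x : W) {U : Set W} (hU : IsOpen U)
    (hx : x ∈ U) : ∃ V, IsOpen V ∧ x ∈ V ∧ closure V ⊆ U ∧ Nul n d (S ∩ frontier V) := by
  have hc := at_chart (n := n) x
  generalize chartAt (Cm n) x = c at hc
  obtain ⟨δ, h0, h1⟩ := nhds_basis_closedBall.mem_iff.1 (inter_mem (c.open_target.mem_nhds
    hc.mem_target) (c.continuousAt_symm hc.mem_target (hU.mem_nhds (hc.left_inv.symm ▸ hx))))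
  obtain ⟨r, hr, h2⟩ := Measure.exists_mem_of_measure_ne_zero_of_ae (s := Ioo 0 δ)
    (by simpa using h0) (ae_restrict_of_ae (slice_null (h c hc.1) (LipschitzWith.dist_left (c x))))
  have h3 : closedBall (c x) r ⊆ _ := (closedBall_subset_closedBall hr.2.le).trans h1
  have h4 : closure (c.source ∩ c ⁻¹' ball (c x) r) ⊆ c.symm '' closedBall (c x) r :=
    closure_minimal (fun y hy => ⟨c y, ball_subset_closedBall hy.2, c.left_inv hy.1⟩)
      ((isCompact_closedBall _ _).image_of_continuousOn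
        (c.continuousOn_symm.mono fun z hz => (h3 hz).1)).isClosed
  have h5 := c.isOpen_inter_preimage (isOpen_ball (x := c x) (ε := r))
  refine ⟨_, h5, ⟨hc.2, mem_ball_self hr.1⟩, h4.trans ?_, fun e he => ?_⟩
  · rintro _ ⟨z, hz, rfl⟩
    exact (h3 hz).2
  · have h6 : ∀ y ∈ frontier (c.source ∩ c ⁻¹' ball (c x) r), y ∈ c.source ∧
        dist (c y) (c x) = r := fun y hy => by
      rw [h5.frontier_eq] at hy
      obtain ⟨z, hz, rfl⟩ := h4 hy.1
      have a := c.map_target (h3 hz).1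
      refine ⟨a, le_antisymm ?_ (not_lt.1 fun b => hy.2 ⟨a, b⟩)⟩
      rwa [c.right_inv (h3 hz).1]
    refine measure_mono_null ?_ (null_an (f := fun z => e (c.symm z)) (by positivity)
      (S := c '' (S ∩ frontier (c.source ∩ c ⁻¹' ball (c x) r) ∩ e.source)) ?_
      (measure_mono_null ?_ h2))
    · rintro _ ⟨y, hy, rfl⟩
      exact ⟨c y, ⟨y, hy, rfl⟩, by simp only [c.left_inv (h6 y hy.1.2).1]⟩
    · rintro _ ⟨y, hy, rfl⟩
      exact trans_an ⟨he, hy.2⟩ ⟨hc.1, (h6 y hy.1.2).1⟩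
    · rintro _ ⟨y, hy, rfl⟩
      exact ⟨⟨y, ⟨hy.1.1, (h6 y hy.1.2).1⟩, rfl⟩, (h6 y hy.1.2).2⟩

/-- the cohomological dimension of a compact set of complex dimension `r` -/
theorem van_dim {k : Type} [Field k] {F : P275S.Cx k (TopCat.of W)} {p : F ⟶ F} (hF : SoftC F)
    (hp : Homotopy (p ≫ p) p) {A S : Set W} (hA : IsClosed A) (hS : IsCompact S) {r : ℕ}
    (h : CvC n r S) {c m : ℤ} (hx : ∀ x, x ∉ A → ∀ j, c < j → ZeroAt p j x)
    (hm : c + 2 * r < m) : Van p A S m := by
  have := nice_mf n W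
  refine van_ind hF hp hA (Nul n) (fun d e _ => by simp)
    (fun d S S' a b e he => measure_mono_null (image_mono (inter_subset_inter_left _ a)) (b e he))
    (fun d S S' a b e he => ?_) (fun S a => eq_empty_of_forall_notMem fun x hx => ?_)
    (fun d S a x _ U hU b => a.slice x hU b) hx (2 * r + 1) S hS (fun e he => null_cv (h e he)) m
    (by push_cast; omega)
  · rw [union_inter_distrib_right, image_union]
    exact measure_union_null (a e he) (b e he)
  · have h1 := a _ (at_chart x).1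
    rw [Nat.cast_zero] at h1
    simpa [h1] using Measure.one_le_hausdorffMeasure_zero_of_nonempty
      (s := chartAt (Cm n) x '' (S ∩ (chartAt (Cm n) x).source)) ⟨_, x, ⟨hx, (at_chart x).2⟩, rfl⟩

theorem top (hD : DIMP) : TOP := by
  intro n W _ _ _ _ _ X _ i hi N R hN hA hV
  have := nice_mf n W
  have h0 : ∀ r, CvC n (n + r) N := fun r e _ => by
    induction r with
    | zero => exact ⟨fun _ => univ, fun _ => id, fun _ => isOpen_univ, fun _ _ _ => analyticAt_id,
        fun x _ => mem_iUnion.2 ⟨0, x, trivial, rfl⟩⟩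
    | succ r ih => exact ih.succ
  have h1 : ∀ r, CvC n (R + r) N → CvC n R N := fun r => by
    induction r with
    | zero => exact id
    | succ r ih =>
      intro h
      obtain ⟨S, s1, s2, s3, s4⟩ := hD n W N (R + r) hA h
      rcases (N \ S).eq_empty_or_nonempty with e | ⟨p, hp⟩
      · exact ih (Subset.antisymm s2 (sdiff_eq_empty.1 e) ▸ s3)
      choose c c1 c2 using s4.chart
      let T : Atl (R + r + 1) n (Subtype.val : ↥(N \ S) → W) := ⟨c, c1, c2, continuous_subtype_val⟩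
      let := T.cs
      have := T.isManifold
      refine (not_van (d := R + r + 1) (X := TopCat.of W)
        (i := TopCat.ofHom ⟨Subtype.val, continuous_subtype_val⟩) IsInducing.subtypeVal s1 hN
        Subtype.range_coe ⟨p, hp⟩ (van_pair s2 ?_ ?_)).elim
      · refine (van_emb (i := TopCat.ofHom i) hi isClosed_empty hN).1 ?_
        rw [image_empty]
        exact hV _ (by push_cast; omega)
      · exact van_dim (softC_I ℂ _) (idemId _) isClosed_empty (hN.of_isClosed_subset s1 s2) s3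
          (c := 0) (fun x _ j hj => (rs_I ℂ (TopCat.of W)).ex j hj x) (by push_cast; omega)
  exact h1 n (add_comm n R ▸ h0 R)

end Vale.Agent.P275FD
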